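import Mathlib
import Vale.Agent.P165.Defs
import Vale.Agent.P151.Return
import Vale.Agent.P151.Growth.Main

/-!
No percolation at the critical point of any Cayley graph whose ball volumes grow faster than every
stretched exponential of exponent two thirds.
-/

namespace Vale.Agent.Results.P151.GrowthCritical

open MeasureTheory Filter
open Vale.Agent.P165 (perc openGraph pc)
open Vale.Agent.P151.Return (wball)

theorem result : ∀ (G : Type) [Group G] [DecidableEq G] (S : Finset G),
    (∀ s ∈ S, s⁻¹ ∈ S) → (1 : G) ∉ S → Subgroup.closure (S : Set G) = ⊤ →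
    Tendsto (fun r : ℕ => Real.log ((wball S r).card : ℝ) / (r : ℝ) ^ (2 / 3 : ℝ)) atTop atTop →
    pc (SimpleGraph.mulCayley (S : Set G)) < 1 ∧
      ∀ p : unitInterval, (p : ℝ) = pc (SimpleGraph.mulCayley (S : Set G)) →
        perc G p {ω | ∃ x,
          {y | (openGraph (SimpleGraph.mulCayley (S : Set G)) ω).Reachable x y}.Infinite} = 0 :=
  Vale.Agent.P151.Growth.main

end Vale.Agent.Results.P151.GrowthCritical
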