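import Mathlib
import Vale.Agent.P165.Defs
import Vale.Agent.P151.Return
import Vale.Agent.P151.Main
import Vale.Agent.P151.Product
import Vale.Agent.P151.Lace
import Vale.Agent.P151.Critical.Main

/-!
No percolation at the critical point on spread-out Cayley graphs of groups of large growth and on
products of Cayley graphs with lattices of large dimension.
-/

namespace Vale.Agent.Results.P151.SpreadOut

open MeasureTheory
open Vale.Agent.P165 (perc openGraph pc)
open Vale.Agent.P151.Return (walk wball)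

theorem result :
    (∀ g : ℝ, ∃ D₀ : ℕ, ∀ (G : Type) [Group G] [DecidableEq G] (S : Finset G),
      (∀ s ∈ S, s⁻¹ ∈ S) → (1 : G) ∉ S → Subgroup.closure (S : Set G) = ⊤ → D₀ ≤ S.card →
      (∀ N : ℕ, ∑ n ∈ Finset.range N, ((n + 16).choose 16 : ℝ) * walk S n 1 ≤ g) →
      pc (SimpleGraph.mulCayley (S : Set G)) < 1 ∧
      ∀ p : unitInterval, (p : ℝ) = pc (SimpleGraph.mulCayley (S : Set G)) →
        perc G p {ω | ∃ x,
          {y | (openGraph (SimpleGraph.mulCayley (S : Set G)) ω).Reachable x y}.Infinite} = 0) ∧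
    (∀ (G : Type) [Group G] [DecidableEq G] (S : Finset G),
      (∀ s ∈ S, s⁻¹ ∈ S) → Subgroup.closure (S : Set G) = ⊤ →
      (∃ c : ℝ, 0 < c ∧ ∀ r : ℕ, 1 ≤ r → c * (r : ℝ) ^ 36 ≤ (wball S r).card) →
      ∃ R₀ : ℕ, ∀ R : ℕ, R₀ ≤ R →
        pc (SimpleGraph.mulCayley (((wball S R).erase 1 : Finset G) : Set G)) < 1 ∧
        ∀ p : unitInterval,
          (p : ℝ) = pc (SimpleGraph.mulCayley (((wball S R).erase 1 : Finset G) : Set G)) →
          perc G p {ω | ∃ x, {y | (openGraph (SimpleGraph.mulCayley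
            (((wball S R).erase 1 : Finset G) : Set G)) ω).Reachable x y}.Infinite} = 0) ∧
    (∃ k₀ : ℕ, ∀ (G : Type) [Group G] (A : Finset G), (∀ a ∈ A, a⁻¹ ∈ A) → (1 : G) ∉ A →
      Subgroup.closure (A : Set G) = ⊤ → ∀ k : ℕ, k₀ ≤ k → A.card ≤ k →
      ∀ H : SimpleGraph (G × Multiplicative (Fin k → ℤ)),
        H = SimpleGraph.mulCayley {x | (x.1 ∈ A ∧ x.2 = 1) ∨
          (x.1 = 1 ∧ ∃ i, x.2 = Multiplicative.ofAdd (Pi.single i 1))} →
        pc H < 1 ∧ ∀ p : unitInterval, (p : ℝ) = pc H →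
          perc _ p {ω | ∃ x, {y | (openGraph H ω).Reachable x y}.Infinite} = 0) :=
  ⟨Vale.Agent.P151.master Vale.Agent.P151.laceStmt_ok Vale.Agent.P151.criticalStmt_ok,
    Vale.Agent.P151.spreadOut Vale.Agent.P151.laceStmt_ok Vale.Agent.P151.criticalStmt_ok,
    Vale.Agent.P151.productLattice Vale.Agent.P151.laceStmt_ok Vale.Agent.P151.criticalStmt_ok⟩

end Vale.Agent.Results.P151.SpreadOut
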